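import Crest.Agent.X212.Nd18.Fk
import Crest.Agent.X212.Crt72.Glue
import Crest.Agent.X212.Cyt76.Main
import Crest.Agent.X212.Cpt31.Fin
import Crest.Agent.X212.Der92.DerI

/-!
# Row 212, NP (helper83): the critical data with the gradings of the reference
-/

set_option autoImplicit false
noncomputable section

namespace Crest.Agent.X212.Npm83
open An M Nd18 Crt72

variable (κ lam : Type) [Fintype κ] [Fintype lam]

/-- LEAF LNK: the gradings of a reference change by the spectral flow -/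
def LnkStmt : Prop := ∀ (Y : Mf 3) [CompactSpace Y.M] (D : YD Y.I Y.M κ lam) (H : Hd D), HY D →
  D.NoRed → H.OK → H.k = 8 → ∃ k, 7 ≤ k ∧ ∃ sf : SfT D, (∀ act, (gm D k act sf).AxSf) ∧
    ∃ δ > 0, δ ≤ 1 / 8 ∧ ∃ ε, Lnk D k sf δ H.g H.d ε

variable {κ lam}

theorem hy [DecidableEq lam] (y : G75.YD κ lam) : HY (yD y) :=
  ⟨(y.N.cy_ok y.a).yd, (y.M.bn y.a).con, (yY y).dim⟩

/-- **LEAF NP** -/
theorem np [DecidableEq lam] (h : LnkStmt κ (lam ⊕ lam)) : Fk18.NpStmt κ lam :=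
  fun y hy' H Rw cI h1 h2 =>
    let ⟨_, hk, _, hs, _, d0, d1, _, K⟩ := h _ _ H (hy y) hy'.red h1 h2
    let ⟨N, S, a, _, b, c, _, e⟩ := crit ⟨Cyt76.cycStmt _, Cpt31.cptStmt _, Der92.derI⟩ (hy y)
      hy'.red hk hs d0 d1 K H.kp cI Rw
    ⟨N, S, a, e, b, c⟩

end Crest.Agent.X212.Npm83
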