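import Crest.Agent.X212.Npm83.Lk0
import Crest.Agent.X212.Npm83.Np
import Crest.Agent.X212.Crt72.Lf
import Crest.Agent.X212.Ax1.Kk

/-!
# Row 212, LNK (helper83): the gradings change by the spectral flow
-/

set_option autoImplicit false
set_option linter.unusedSectionVars false
noncomputable section
open scoped Manifold ContDiff Topology InnerProductSpace
open Set Function Filter

namespace Crest.Agent.X212.Npm83
open An An.Pre Sob92 M Cyf70 Map77 Nd18 Crt72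

section
variable {E3 : Type} [NormedAddCommGroup E3] [NormedSpace ℝ E3] [FiniteDimensional ℝ E3]
  [MeasurableSpace E3] [BorelSpace E3]
  {H3 : Type} [TopologicalSpace H3] {I3 : ModelWithCorners ℝ E3 H3} [I3.Boundaryless]
  {Y : Type} [TopologicalSpace Y] [ChartedSpace H3 Y] [IsManifold I3 ∞ Y] [T2Space Y]
  [MeasurableSpace Y] [BorelSpace Y] [SecondCountableTopology Y] [CompactSpace Y]
  {κ : Type} [Fintype κ] {lam : Type} [Fintype lam] {D : YD I3 Y κ lam} {β : YC Y κ lam}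
  {k : ℕ} {act : ActT D k} {sf : SfT D} {q : (gm D k act sf).Fd} {N : ND Y lam} {x : XY D}

/-- the part of the Hessian on the cross-section -/
def kx (K : HZ D β 0 →L[ℝ] HZ D β 0) : XX D β 0 →L[ℝ] XX D β 0 := kk (KZ K)

variable (D β) in
/-- the operator on the cross-section -/
def lx : XX D β 1 →L[ℝ] XX D β 0 := Cyf70.LH D.F (AZ D β) 0

/-- no spinor part -/
def Ns (x : XX D β 0) : Prop := ∀ X : XX D β 0 →L[ℝ] XX D β 0,
  (∀ s : Sec I3 (ph D β), (∀ y, fp (s.1 y) = 0) → X (D.F.toH 0 _ s) = 0) → X x = 0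

theorem lift_eq {V W : Type} [NormedAddCommGroup V] [InnerProductSpace ℝ V] [FiniteDimensional ℝ V]
    [NormedAddCommGroup W] [InnerProductSpace ℝ W] [FiniteDimensional ℝ W] {F : Fr I3 Y κ}
    {A : An.Op Y (Option κ) V W} (h : CyO F A) {T : (Y → V) → Y → V}
    (e : ∀ (u : Sec I3 A.p) y, T u.1 y = (sop A).app F u.1 y) :
    F.lift 1 0 A.p A.p T = Cyf70.LH F A 0 := RepT.liftT_eq
  (RepT_congr (rep_OpH h.good_sop.choose_spec 0).1 fun u => funext fun y => (e u y).symm)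

theorem L0_eq (h : Crt72.HY D) (A : D.Adm β) : D.F.lift 1 0 _ _ (lf D β) = lx D β :=
  lift_eq (A := AZ D β) (Op78.cyO_sz h.ok A h.dim.le) fun u y => (Op78.lf_eq h.ok A u y).trans
    (congrArg (fun A => (sop A).app D.F u.1 y) (rfl : Op78.sl0 (Op78.sz D β) = AZ D β))

theorem ag (h : Crt72.HY D) (hk : 7 ≤ k) (A : (gm D k act sf).Ax) (m : q ∈ (gm D k act sf).Rl)
    (r : Rz D q N) (p : Kp N D x.1) {K : HZ D x.1 0 →L[ℝ] HZ D x.1 0} (hK : IsK N D x.1 K) :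
    Ag (Q := gm D k act sf) (o := x) q (kx K) :=
  let ⟨_, _, t⟩ := p.tk hK
  ⟨t.kk_symm, Ax1.Kk.kkStmt _ _ κ lam D N x k act sf q h hk A m r p K hK⟩

theorem X0_ns (h : Crt72.HY D) {w : XX D x.1 0} (hw : Ns w) :
    (gm D k act sf).X0 x 0 w = 0 := by
  have H : Lin97.Hy D x.1 := ⟨h, x.2⟩
  change xX D x.1 (D.F.val (k + 2) _ 0) 0 w = 0
  rw [val_zero]
  refine hw _ fun s hs => (RepT_toH' (H.rep_xX 0) s 0 (funext fun y => ext2 ?_ ?_)).trans (map_zero _)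
  · exact (f2_sm2 _ _ _).trans (fm_ext fun a => (congrArg (fun T : CL x.1.m.A x.1.m.A => -T (fa (s.1 y) a))
      ((congrArg Wz78.adcL (map_zero opL)).trans (map_zero _))).trans neg_zero)
  · exact (s2_sm2 _ _ _).trans (by simp [hs])

end

variable {κ lam : Type} [Fintype κ] [Fintype lam]

variable (κ lam) in
/-- LEAF MIXV: the index of the mixed cylinder -/
def MvStmt (k : ℕ) : Prop := ∀ (Y : Mf 3) [CompactSpace Y.M] (D : YD Y.I Y.M κ lam)
  (N : Bool → ND Y.M lam) β (K : Bool → HZ D β 0 →L[ℝ] HZ D β 0),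
  (∀ o, (XD.mk Y D (N o)).OK ∧ Gd (N o) D β ∧ IsK (N o) D β (K o)) →
  (∀ s s' r, Stp s s' r → ∃ j ∈ symA _, ∀ᶠ δ in 𝓝[>] (0 : ℝ), (zB D N).Ix univ (cy β) k δ
    (sf (D.F.incl 1 0 _) (lx D β) (Ψ D.F.toPre 1 _) (TH D.F _) s
      (kx (K false) + δ • j) (kx (K true) - δ • j))) ∧
  (D.Zr β → (∀ (τ : ℝ) w, Ns (D.F.incl 1 0 _ w) → Crt72.Op (D.F.incl 1 0 _) (lx D β)
      (kx (K false) + τ • (kx (K true) - kx (K false))) w = 0 → w = 0) →
    ∀ᶠ δ in 𝓝[>] (0 : ℝ), (zB D N).Ix ∅ (cy β) k δ 0)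

variable {Y : Mf 3} [CompactSpace Y.M] {D : YD Y.I Y.M κ lam} {k : ℕ} {act : ActT D k} {sf : SfT D}
  {q q' : (gm D k act sf).Fd} {N N' : ND Y.M lam} {x : XY D}

theorem two (hP : All Y.I Y.M κ lam Kp) (h : Crt72.HY D) (hk : 7 ≤ k) (T : Two q q' N N' x) :
    Bijective ((gm D k act sf).σ x ∘L (gm D k act sf).d x 0) ∧
    ∃ K : Bool → HZ D x.1 0 →L[ℝ] HZ D x.1 0, (∀ o, (XD.mk Y D (bif o then N' else N)).OK ∧
      Gd (bif o then N' else N) D x.1 ∧ IsK (bif o then N' else N) D x.1 (K o)) ∧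
      Ag (Q := gm D k act sf) (o := x) q (kx (K false)) ∧
      Ag (Q := gm D k act sf) (o := x) q' (kx (K true)) := by
  have hb := T.ax.op.bij x ((em (D.Zr x.1)).symm.imp (fun z e => z ((pi_iff h x).1 e)) T.irr)
  have k : ∀ {q N}, q ∈ (gm D k act sf).Rl → Rz D q N → N.Crit D x.1 → (gm D k act sf).Bij q x →
      ∃ K, ((XD.mk Y D N).OK ∧ Gd N D x.1 ∧ IsK N D x.1 K) ∧
        Ag (Q := gm D k act sf) (o := x) q (kx K) := fun {q N} m r c b =>
    have p := hP N D x.1 ⟨h.ok, r.ok, x.2⟩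
    let ⟨K, hK⟩ := p.exists_K (.inl rfl)
    ⟨K, ⟨⟨h.ok, r.ok, h.conn⟩, ⟨c, r.nd x fun u hu => T.ax.on_of_bij m ((r.crit x).1 c) hb b
      u hu False.elim fun e => e.elim, T.irr⟩, hK⟩, ag h hk T.ax m r p hK⟩
  obtain ⟨K₁, a₁, b₁⟩ := k T.rl.1 T.rz.1 T.crit.1 T.bij.1
  obtain ⟨K₂, a₂, b₂⟩ := k T.rl.2 T.rz.2 T.crit.2 T.bij.2
  exact ⟨hb, fun o => bif o then K₂ else K₁, fun o => by cases o; exacts [a₁, a₂], b₁, b₂⟩

/-- **LEAF LNK** -/
theorem lnk (hP : ∀ (Y : Mf 3) [CompactSpace Y.M], All Y.I Y.M κ lam Kp) (hM : MixStmt κ lam 8)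
    (hV : MvStmt κ lam 8) : LnkStmt κ lam := fun Y _ D H h _ hH h8 => by
  obtain ⟨s, s', hs⟩ := exists_stp
  refine ⟨7, le_rfl, Ms1.sfY D s, Ms1.axSf D h (Op78.op3 D h) hs 7, 1 / 8, by norm_num, le_rfl, 1,
    rfl, fun act q q' N N' x _ _ T => ?_, fun act q q' N N' x _ _ T z hg => ?_⟩
  all_goals
    obtain ⟨hb, K, a, b, b'⟩ := two (hP Y) h le_rfl T
    have s1 := (T.rz.1.crit x).1 T.crit.1
    have s2 := (T.rz.2.crit x).1 T.crit.2
    have m := fun f => hM Y D H _ f x.1 hH h8 fun o => ⟨(a o).1, (a o).2.1⟩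
    have v := hV Y D _ x.1 K a
    rw [← L0_eq h x.2] at v
  · obtain ⟨j, hj, v⟩ := v.1 s s' 1 hs
    obtain ⟨δ, ⟨e1, e2⟩, e3⟩ := (((m true (.inl rfl)).and v).and (nhdsWithin_le_nhds
      (sf_mix T.ax T.rl.1 T.rl.2 s1 s2 hb b b' T.bij.1 T.bij.2 hj))).exists
    have e : Ms1.sfY D s x _ _ = _ := e3.symm.trans (e1 _ e2)
    simp only [Hd.g, e, cond_true, cond_false, nz, T.fx, not_true, and_false, if_false]
    omega
  · obtain ⟨δ, e1, e2⟩ := ((m false (.inr z)).and (v.2 z fun τ w hw e => ker_fix T.ax T.rl.1 T.rl.2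
      s1 s2 hb b b' T.bij.1 ((pi_iff h x).2 z) hg (X0_ns h hw) e)).exists
    have e := e1 _ e2
    simp only [Hd.d, nz, cond_true, cond_false, Bool.false_eq_true, false_and, if_false] at e ⊢
    omega

end Crest.Agent.X212.Npm83
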