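import Crest.Agent.X212.Crt72.Three

/-!
# Row 212, LNK (helper83): the `dt`-block of the Hessian does not change the spectral flow
-/

set_option autoImplicit false
noncomputable section
open Set Filter Topology Function
open scoped InnerProductSpace

namespace Crest.Agent.X212.Npm83
open Crt72 GM

theorem sf_near {X₁ X₀ : Type*} [NormedAddCommGroup X₁] [NormedSpace ℝ X₁] [CompleteSpace X₁]
    [NormedAddCommGroup X₀] [InnerProductSpace ℝ X₀] [CompleteSpace X₀] {i L : X₁ →L[ℝ] X₀}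
    {A : Submodule ℝ (X₀ →L[ℝ] X₀)} {sf : (X₀ →L[ℝ] X₀) → (X₀ →L[ℝ] X₀) → ℤ} (H : SF i L A sf)
    {a b j : X₀ →L[ℝ] X₀} (ha : a ∈ A) (hb : b ∈ A) (hj : j ∈ A) (h : Bijective (Op i L a))
    (h' : Bijective (Op i L b)) : ∀ᶠ δ in 𝓝 (0 : ℝ), sf (a + δ • j) (b - δ • j) = sf a b := by
  have k : ∀ {a j}, a ∈ A → j ∈ A → Bijective (Op i L a) → ∀ᶠ δ in 𝓝 (0 : ℝ),
      Bijective (Op i L (a + δ • j)) ∧ sf a (a + δ • j) = 0 := fun {a j} ha hj h => by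
    have c : Continuous fun δ : ℝ => Op i L (a + δ • j) := by unfold Op; fun_prop
    obtain ⟨r, hr, e⟩ := Metric.eventually_nhds_iff.1 (c.continuousAt.eventually
      (isOpen_bij.mem_nhds (show Bijective (Op i L (a + (0 : ℝ) • j)) by simpa using h)))
    refine Metric.eventually_nhds_iff.2 ⟨r, hr, fun δ hδ => ⟨e hδ, H.hom a ha _
      (add_mem ha (A.smul_mem _ hj)) fun s hs => ?_⟩⟩
    rw [add_sub_cancel_left, smul_smul]
    refine e (lt_of_le_of_lt ?_ hδ)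
    rw [dist_zero_right, dist_zero_right, norm_mul]
    exact mul_le_of_le_one_left (norm_nonneg _) (abs_le.2 ⟨by linarith [hs.1], hs.2⟩)
  filter_upwards [k ha hj h, k hb (neg_mem hj) h'] with δ ⟨e1, e2⟩ ⟨e3, e4⟩
  rw [smul_neg, ← sub_eq_add_neg] at e3 e4
  have m := add_mem ha (A.smul_mem δ hj)
  have m' := sub_mem hb (A.smul_mem δ hj)
  have := H.add _ ha _ m _ m' h e1 e3
  have := H.add _ ha _ hb _ m' h h' e3
  omega

variable {Bc Bw B2 : Type} {Q : GM Bc Bw B2} (H : Q.Ax) {o : Q.X} {q q' : Q.Fd}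
  {k k' : Q.X₀ o →L[ℝ] Q.X₀ o}

/-- `k` is the Hessian off the `dt`-components -/
def Ag (q : Q.Fd) (k : Q.X₀ o →L[ℝ] Q.X₀ o) : Prop :=
  k ∈ symA _ ∧ ∀ e, k (Q.j0 o (e, 0)) = Q.hs q o (Q.j0 o (e, 0))

include H

theorem perp {w : Q.X₀ o} (hw : ∀ h, ⟪w, Q.j0 o (0, h)⟫_ℝ = 0) {B : Q.X₀ o →L[ℝ] Q.X₀ o}
    (hB : ∀ e, B (Q.j0 o (e, 0)) = 0) : B w = 0 := by
  have : ∀ x, ‖B w‖ ≤ ‖B‖ * ‖w - x‖ := fun x => by
    refine (H.op.den0 o).induction_on x (isClosed_le (by fun_prop) (by fun_prop)) fun ⟨e, h⟩ => ?_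
    rw [show B w = B (w - Q.j0 o (e, 0)) by rw [map_sub, hB, sub_zero]]
    refine (B.le_opNorm _).trans (mul_le_mul_of_nonneg_left
      ((mul_self_le_mul_self_iff (norm_nonneg _) (norm_nonneg _)).2 ?_) (norm_nonneg _))
    rw [H.op.split o e h, ← sub_sub, norm_sub_sq_eq_norm_sq_add_norm_sq_real (y := Q.j0 o (0, h))
      (by rw [inner_sub_left, hw, H.op.orth, sub_zero])]
    exact le_add_of_nonneg_right (mul_self_nonneg _)
  simpa using this w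

theorem red (hq : q ∈ Q.Rl) (hq' : q' ∈ Q.Rl) (s : Q.Sol q o) (s' : Q.Sol q' o)
    (hb : Bijective (Q.σ o ∘L Q.d o 0)) (a : Ag q k) (a' : Ag q' k') {τ : ℝ} {w : Q.X₁ o}
    (h : Op (Q.i o) (Q.L0 o) (k + τ • (k' - k)) w = 0) :
    Op (Q.i o) (Q.L0 o) (Q.hs q o + τ • (Q.hs q' o - Q.hs q o)) w = 0 := by
  have e : ∀ e, (k + τ • (k' - k) - (Q.hs q o + τ • (Q.hs q' o - Q.hs q o))) (Q.j0 o (e, 0)) = 0 :=
    fun e => by simp [a.2, a'.2]
  have g : ∀ {q}, q ∈ Q.Rl → Q.Sol q o → ∀ η, Q.L0 o (Q.j1 o (Q.d o 0 η, 0)) +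
      Q.hs q o (Q.j0 o (Q.ic o (Q.d o 0 η), 0)) = Q.j0 o (0, Q.σ o (Q.d o 0 η)) := fun hq s η => by
    have := H.dF_dd hq s (η, 0)
    rw [dd_apply, zero_smul, add_zero] at this
    have e := H.op_j1 (Rl_le hq) o (Q.d o 0 η, 0)
    rwa [ext_apply, this, map_zero, add_zero, Op_apply, H.op.ij, map_zero] at e
  have p := perp H (w := Q.i o w) (fun h' => by
    obtain ⟨η, rfl⟩ := hb.2 h'
    have := (H.sf o).symOp (add_mem a.1 ((symA _).smul_mem τ (sub_mem a'.1 a.1))) w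
      (Q.j1 o (Q.d o 0 η, 0))
    rw [h, inner_zero_left, Op_apply, H.op.ij, map_zero] at this
    refine Eq.trans (congrArg _ ?_) this.symm
    simp only [add_apply, smul_apply, sub_apply, a.2, a'.2, eq_sub_of_add_eq' (g hq s η),
      eq_sub_of_add_eq' (g hq' s' η), ContinuousLinearMap.comp_apply]
    simp) e
  rw [Op_apply, ← sub_eq_zero.1 ((sub_apply _ _ _).symm.trans p), ← Op_apply, h]

theorem sf_ag (hq : q ∈ Q.Rl) (s : Q.Sol q o) (hb : Bijective (Q.σ o ∘L Q.d o 0)) (a : Ag q k)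
    (b : Q.Bij q o) : Bijective (Op (Q.i o) (Q.L0 o) k) ∧ Q.sf o (Q.hs q o) k = 0 := by
  have m := H.hs_sym (Rl_le hq) o
  have : ∀ τ : ℝ, Bijective (Op (Q.i o) (Q.L0 o) (Q.hs q o + τ • (k - Q.hs q o))) := fun τ =>
    (H.sf o).bij_of_inj fun w h => (injective_iff_map_eq_zero _).1 b.1 w (by
      simpa using red H hq hq s s hb ⟨m, fun _ => rfl⟩ a h)
  exact ⟨by simpa using this 1, (H.sf o).hom _ m _ a.1 fun τ _ => this τ⟩

/-- the flow between the ends of the mixed cylinder -/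
theorem sf_mix (hq : q ∈ Q.Rl) (hq' : q' ∈ Q.Rl) (s : Q.Sol q o) (s' : Q.Sol q' o)
    (hb : Bijective (Q.σ o ∘L Q.d o 0)) (a : Ag q k) (a' : Ag q' k') (b : Q.Bij q o)
    (b' : Q.Bij q' o) {j : Q.X₀ o →L[ℝ] Q.X₀ o} (hj : j ∈ symA _) : ∀ᶠ δ in 𝓝 (0 : ℝ),
      Q.sf o (k + δ • j) (k' - δ • j) = Q.sf o (Q.hs q o) (Q.hs q' o) := by
  obtain ⟨e1, e2⟩ := sf_ag H hq s hb a b
  obtain ⟨e3, e4⟩ := sf_ag H hq' s' hb a' b'
  have m := H.hs_sym (Rl_le hq) o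
  have := (H.sf o).add _ m _ a.1 _ a'.1 b e1 e3
  have := (H.sf o).add _ m _ (H.hs_sym (Rl_le hq') o) _ a'.1 b b' e3
  exact (sf_near (H.sf o) a.1 a'.1 hj e1 e3).mono fun δ e => by omega

/-- no kernel without spinor along the segment -/
theorem ker_fix (hq : q ∈ Q.Rl) (hq' : q' ∈ Q.Rl) (s : Q.Sol q o) (s' : Q.Sol q' o)
    (hb : Bijective (Q.σ o ∘L Q.d o 0)) (a : Ag q k) (a' : Ag q' k') (b : Q.Bij q o)
    (h0 : Q.J o 0 = 0) (hg : ∀ v, Q.J o v = 0 → Q.gr q' o v = Q.gr q o v) {τ : ℝ} {w : Q.X₁ o}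
    (hw : Q.X0 o 0 (Q.i o w) = 0) (h : Op (Q.i o) (Q.L0 o) (k + τ • (k' - k)) w = 0) : w = 0 := by
  have S := H.sp.I o h0
  have e : ∀ x, Q.hs q' o (pk0 (Q.X0 o 0) 1 x) = Q.hs q o (pk0 (Q.X0 o 0) 1 x) :=
    ext_dense (H.op.den o) (by fun_prop) (by fun_prop) fun z => by
      have c := pk0_comm 1 (T := Q.i o ∘L Q.j1 o) (X := (Q.XC o 0).prodMap (Q.XM o 0))
        (X' := Q.X0 o 0) (fun z => (congrArg _ (S.j1 z.1 z.2)).trans (S.i _)) z
      have x := congrArg Prod.fst (X_pk0 one_ne_zero (H.cubeZ S) z)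
      simp only [ContinuousLinearMap.comp_apply] at c
      rw [c, H.hs_spec (Rl_le hq), H.hs_spec (Rl_le hq')]
      generalize pk0 _ 1 z = u at x
      have d := fun {q} (hq : q ∈ Q.Rl) => HasFDerivAt.comp_hasDerivAt (0 : ℝ)
        (f := fun ε : ℝ => ε • u.1) (by rw [zero_smul]; exact H.dgr (Rl_le hq) o 0)
        ((hasDerivAt_id' (0 : ℝ)).smul_const u.1)
      have := (d hq').unique ((d hq).congr_of_eventuallyEq (.of_forall fun ε => hg _ (by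
        have := S.C (ε • u.1)
        rwa [map_smul, show Q.XC o 0 u.1 = 0 from x, smul_zero, map_zero, sub_zero, eq_comm] at this)))
      rw [one_smul] at this
      rw [this]
  have := red H hq hq' s s' hb a a' h
  have e' := e (Q.i o w)
  rw [pk0_of 1 hw] at e'
  exact (injective_iff_map_eq_zero _).1 b.1 w (by simpa [Op_apply, e'] using this)

end Crest.Agent.X212.Npm83
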